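import Vale.Agent.Lib.P095E.TensorAct

/-!
# P095, third formulation: a strongly self-absorbing algebra has approximately inner half flip
-/

open scoped Topology TensorProduct

namespace P095K

universe u

section Norm

variable {C D : Type u} [CStarAlgebra C] [CStarAlgebra D]

theorem norm_conj {u : C} (hu : u ∈ unitary C) (x : C) : ‖u * x * star u‖ = ‖x‖ := by
  rw [CStarRing.norm_mul_mem_unitary _ (Unitary.star_mem hu), CStarRing.norm_mem_unitary_mul _ hu]

theorem norm_equiv (e : C ≃⋆ₐ[ℂ] D) (x : C) : ‖e x‖ = ‖x‖ :=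
  NonUnitalStarAlgHom.norm_map (e : C →⋆ₐ[ℂ] D) e.injective x

/-- `f` is a pointwise limit of inner automorphisms -/
def AppInner (f : C → C) : Prop :=
  ∀ (T : Finset C) (ε : ℝ), 0 < ε → ∃ u ∈ unitary C, ∀ c ∈ T, ‖u * c * star u - f c‖ < ε

theorem equiv_unitary (e : C ≃⋆ₐ[ℂ] D) {u : C} (hu : u ∈ unitary C) : e u ∈ unitary D := by
  rw [Unitary.mem_iff] at hu ⊢
  constructor
  · rw [← map_star, ← map_mul, hu.1, map_one]
  · rw [← map_star, ← map_mul, hu.2, map_one]

end Norm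

variable {Z C : Type u} [CStarAlgebra Z] [CStarAlgebra C]

/-- the flip of the algebraic tensor product -/
noncomputable def flipHom (Z : Type u) [CStarAlgebra Z] : Z ⊗[ℂ] Z →⋆ₐ[ℂ] Z ⊗[ℂ] Z :=
  { (Algebra.TensorProduct.comm ℂ Z Z : Z ⊗[ℂ] Z →ₐ[ℂ] Z ⊗[ℂ] Z) with
    map_star' := fun t => by
      change Algebra.TensorProduct.comm ℂ Z Z (star t) =
        star (Algebra.TensorProduct.comm ℂ Z Z t)
      induction t using TensorProduct.induction_on with
      | zero => simp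
      | tmul x z =>
        rw [TensorProduct.star_tmul, Algebra.TensorProduct.comm_tmul,
          Algebra.TensorProduct.comm_tmul, TensorProduct.star_tmul]
      | add x y hx hy => rw [star_add, map_add, map_add, hx, hy, star_add] }

theorem flipHom_tmul (x y : Z) : flipHom Z (x ⊗ₜ[ℂ] y) = y ⊗ₜ[ℂ] x := rfl

theorem flipHom_flipHom (t : Z ⊗[ℂ] Z) : flipHom Z (flipHom Z t) = t := by
  induction t using TensorProduct.induction_on with
  | zero => simp
  | tmul x y => rfl
  | add x y hx hy => rw [map_add, map_add, hx, hy]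

theorem exists_flip (hN : P095E.Nuclear Z) (m : Z ⊗[ℂ] Z →⋆ₐ[ℂ] C) (hm : Function.Injective m)
    (hd : DenseRange m) : ∃ σ : C ≃⋆ₐ[ℂ] C, (∀ x y : Z, σ (m (x ⊗ₜ[ℂ] y)) = m (y ⊗ₜ[ℂ] x)) ∧
      ∀ c, σ (σ c) = c := by
  obtain ⟨σ, hσ⟩ := hN Z C C m (m.comp (flipHom Z)) hm hd
    (hm.comp (Function.LeftInverse.injective flipHom_flipHom)) (by
      have : Set.range (m.comp (flipHom Z)) = Set.range m := by
        ext x
        constructor
        · rintro ⟨t, rfl⟩
          exact ⟨_, rfl⟩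
        · rintro ⟨t, rfl⟩
          refine ⟨flipHom Z t, ?_⟩
          change m (flipHom Z (flipHom Z t)) = m t
          rw [flipHom_flipHom]
      rw [DenseRange, this]
      exact hd)
  refine ⟨σ, fun x y => hσ _, ?_⟩
  have h2 : σ * σ = 1 := by
    refine P095E.equiv_ext hd fun t => ?_
    rw [StarAlgEquiv.mul_apply, hσ]
    change σ (m (flipHom Z t)) = m t
    rw [hσ]
    change m (flipHom Z (flipHom Z t)) = m t
    rw [flipHom_flipHom]
  intro c
  rw [← StarAlgEquiv.mul_apply, h2]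
  rfl

/-- `z ↦ z ⊗ 1` is approximately unitarily equivalent to the isomorphism `e` -/
def SsaFor (m : Z ⊗[ℂ] Z →⋆ₐ[ℂ] C) (e : Z ≃⋆ₐ[ℂ] C) : Prop :=
  ∀ (S : Finset Z) (ε : ℝ), 0 < ε →
    ∃ u ∈ unitary C, ∀ z ∈ S, ‖u * m (z ⊗ₜ[ℂ] 1) * star u - e z‖ < ε

/-- Step A: an automorphism of `C` that fixes `z ⊗ 1` is approximately inner -/
theorem appInner_of_fix {m : Z ⊗[ℂ] Z →⋆ₐ[ℂ] C} {e : Z ≃⋆ₐ[ℂ] C} (h : SsaFor m e)
    (κ : C ≃⋆ₐ[ℂ] C) (hκ : ∀ z : Z, κ (m (z ⊗ₜ[ℂ] 1)) = m (z ⊗ₜ[ℂ] 1)) : AppInner κ := by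
  classical
  intro T ε hε
  obtain ⟨u, hu, hS⟩ := h (T.image e.symm) (ε / 2) (half_pos hε)
  have hκu := equiv_unitary κ hu
  refine ⟨κ u * star u, Submonoid.mul_mem _ hκu (Unitary.star_mem hu), fun c hc => ?_⟩
  have h1 := hS (e.symm c) (Finset.mem_image_of_mem _ hc)
  rw [StarAlgEquiv.apply_symm_apply] at h1
  set y := m (e.symm c ⊗ₜ[ℂ] 1) with hy
  have h2 : κ u * star u * c * star (κ u * star u) - κ c =
      κ u * (star u * (c - u * y * star u) * u) * star (κ u) +
        κ (u * y * star u - c) := by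
    have hyk : κ (u * y * star u) = κ u * y * star (κ u) := by
      rw [map_mul, map_mul, map_star, hy, hκ]
    have huu : star u * u = 1 := (Unitary.mem_iff.1 hu).1
    rw [map_sub, hyk]
    have h3 : star u * (c - u * y * star u) * u = star u * c * u - y := by
      calc star u * (c - u * y * star u) * u
          = star u * c * u - (star u * u) * y * (star u * u) := by noncomm_ring
        _ = star u * c * u - y := by rw [huu, one_mul, mul_one]
    rw [h3, star_mul, star_star]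
    noncomm_ring
  rw [h2]
  refine lt_of_le_of_lt (norm_add_le _ _) ?_
  rw [norm_conj hκu, norm_equiv]
  have h4 : ‖star u * (c - u * y * star u) * u‖ = ‖c - u * y * star u‖ := by
    have := norm_conj (Unitary.star_mem hu) (c - u * y * star u)
    rwa [star_star] at this
  rw [h4, norm_sub_rev]
  linarith

/-- Step B: conjugation by an automorphism of order two -/
theorem AppInner.conj {κ : C ≃⋆ₐ[ℂ] C} (h : AppInner κ) (σ : C ≃⋆ₐ[ℂ] C)
    (hσ : ∀ c, σ (σ c) = c) : AppInner fun c => σ (κ (σ c)) := by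
  classical
  intro T ε hε
  obtain ⟨u, hu, hT⟩ := h (T.image σ) ε hε
  refine ⟨σ u, equiv_unitary σ hu, fun c hc => ?_⟩
  have h1 := hT (σ c) (Finset.mem_image_of_mem _ hc)
  rw [← norm_equiv σ] at h1
  have h2 : σ (u * σ c * star u - κ (σ c)) = σ u * c * star (σ u) - σ (κ (σ c)) := by
    rw [map_sub, map_mul, map_mul, map_star, hσ]
  rwa [h2] at h1

/-- **A strongly self-absorbing algebra has approximately inner half flip.** -/
theorem halfFlip_of_ssa (hN : P095E.Nuclear Z) {m : Z ⊗[ℂ] Z →⋆ₐ[ℂ] C}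
    (hm : Function.Injective m) (hd : DenseRange m) {e : Z ≃⋆ₐ[ℂ] C} (h : SsaFor m e)
    (S : Finset Z) (ε : ℝ) (hε : 0 < ε) :
    ∃ u ∈ unitary C, ∀ z ∈ S, ‖u * m (z ⊗ₜ[ℂ] 1) * star u - m (1 ⊗ₜ[ℂ] z)‖ < ε := by
  classical
  obtain ⟨σ, hσ, hσσ⟩ := exists_flip hN m hm hd
  obtain ⟨γ, hγ⟩ := P095E.exists_tensorAction (G := Z ≃⋆ₐ[ℂ] Z) hN m hm hd (MonoidHom.id _)
  -- every `β ⊗ id` is approximately inner
  have hB : ∀ β : Z ≃⋆ₐ[ℂ] Z, AppInner (γ β) := by
    intro β
    have h1 : AppInner ((σ * γ β * σ : C ≃⋆ₐ[ℂ] C)) := by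
      refine appInner_of_fix h _ fun z => ?_
      rw [StarAlgEquiv.mul_apply, StarAlgEquiv.mul_apply, hσ, hγ]
      change σ (m (β 1 ⊗ₜ[ℂ] z)) = _
      rw [map_one, hσ]
    have h2 := h1.conj σ hσσ
    have h3 : (fun c => σ ((σ * γ β * σ : C ≃⋆ₐ[ℂ] C) (σ c))) = γ β := by
      funext c
      rw [StarAlgEquiv.mul_apply, StarAlgEquiv.mul_apply, hσσ, hσσ]
    rwa [h3] at h2
  -- every automorphism of `Z` is approximately inner
  have hC : ∀ (β : Z ≃⋆ₐ[ℂ] Z) (S : Finset Z) (ε : ℝ), 0 < ε →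
      ∃ w ∈ unitary C, ∀ z ∈ S, ‖w * e z * star w - e (β z)‖ < ε := by
    intro β S ε hε
    obtain ⟨u, hu, h1⟩ := h (S ∪ S.image β) (ε / 3) (by linarith)
    obtain ⟨v, hv, h2⟩ := hB β (S.image fun z => m (z ⊗ₜ[ℂ] 1)) (ε / 3) (by linarith)
    have hw : u * v * star u ∈ unitary C :=
      Submonoid.mul_mem _ (Submonoid.mul_mem _ hu hv) (Unitary.star_mem hu)
    refine ⟨u * v * star u, hw, fun z hz => ?_⟩
    have h3 := h1 z (Finset.mem_union_left _ hz)
    have h4 := h1 (β z) (Finset.mem_union_right _ (Finset.mem_image_of_mem _ hz))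
    have h5 := h2 (m (z ⊗ₜ[ℂ] 1)) (Finset.mem_image_of_mem _ hz)
    rw [hγ] at h5
    change ‖v * m (z ⊗ₜ[ℂ] 1) * star v - m (β z ⊗ₜ[ℂ] 1)‖ < ε / 3 at h5
    set y := m (z ⊗ₜ[ℂ] 1) with hy
    set y' := m (β z ⊗ₜ[ℂ] 1) with hy'
    have huu : star u * u = 1 := (Unitary.mem_iff.1 hu).1
    have h6 : u * v * star u * e z * star (u * v * star u) - e (β z) =
        u * v * star u * (e z - u * y * star u) * star (u * v * star u) +
        u * (v * y * star v - y') * star u + (u * y' * star u - e (β z)) := by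
      have h7 : u * v * star u * (u * y * star u) * star (u * v * star u) =
          u * (v * y * star v) * star u := by
        calc u * v * star u * (u * y * star u) * star (u * v * star u)
            = u * v * (star u * u) * y * (star u * u) * star v * star u := by
              rw [star_mul, star_mul, star_star]; noncomm_ring
          _ = u * (v * y * star v) * star u := by rw [huu]; noncomm_ring
      rw [mul_sub, sub_mul, h7]
      noncomm_ring
    rw [h6]
    refine lt_of_le_of_lt (norm_add₃_le) ?_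
    rw [norm_conj hw, norm_conj hu, norm_sub_rev (e z)]
    linarith
  -- the flip is approximately inner
  let β : Z ≃⋆ₐ[ℂ] Z := (e.trans σ).trans e.symm
  obtain ⟨w, hw, h1⟩ := hC β (S.image fun z => e.symm (m (z ⊗ₜ[ℂ] 1))) ε hε
  refine ⟨w, hw, fun z hz => ?_⟩
  have h2 := h1 _ (Finset.mem_image_of_mem (fun z => e.symm (m (z ⊗ₜ[ℂ] 1))) hz)
  have h3 : e (β (e.symm (m (z ⊗ₜ[ℂ] 1)))) = m (1 ⊗ₜ[ℂ] z) := by
    change e (e.symm (σ (e (e.symm (m (z ⊗ₜ[ℂ] 1)))))) = _
    rw [StarAlgEquiv.apply_symm_apply, StarAlgEquiv.apply_symm_apply, hσ]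
  rwa [h3, StarAlgEquiv.apply_symm_apply] at h2

end P095K
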