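import Vale.Agent.Lib.P095K.Stmt
import Vale.Agent.Lib.P095K.Flip
import Vale.Agent.Lib.P095H.DerivB
import Vale.Agent.Lib.P095H.Mean
import Vale.Agent.Lib.P095G.GWhole

/-!
# P095, third formulation: the bridge to `P095G.whole`
-/

open scoped Topology TensorProduct MultiplierAlgebra CStarAlgebra ComplexOrder

namespace P095K

universe u v

section Tensor

theorem embedding_of {D Z B : Type u} [CStarAlgebra D] [CStarAlgebra Z] [CStarAlgebra B]
    (m : D ⊗[ℂ] Z →⋆ₐ[ℂ] B) (hm : Function.Injective m) :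
    IsTensorEmbedding (m : D ⊗[ℂ] Z →ₐ[ℂ] B).toLinearMap where
  injective := hm
  mul a a' z z' := by
    change m ((a * a') ⊗ₜ[ℂ] (z * z')) = m (a ⊗ₜ[ℂ] z) * m (a' ⊗ₜ[ℂ] z')
    rw [← map_mul, Algebra.TensorProduct.tmul_mul_tmul]
  star a z := by
    change m (star a ⊗ₜ[ℂ] star z) = star (m (a ⊗ₜ[ℂ] z))
    rw [← map_star, TensorProduct.star_tmul]

theorem exists_starAlgHom {A Z C : Type u} [CStarAlgebra A] [CStarAlgebra Z] [CStarAlgebra C]
    {n : A ⊗[ℂ] Z →ₗ[ℂ] C} (hn : IsTensorEmbedding n) (hd : DenseRange n) :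
    ∃ m : A ⊗[ℂ] Z →⋆ₐ[ℂ] C, ∀ x, m x = n x := by
  have hmul : ∀ x y, n (x * y) = n x * n y := by
    intro x y
    induction x using TensorProduct.induction_on with
    | zero => simp
    | add x x' hx hx' => rw [add_mul, map_add, map_add, add_mul, hx, hx']
    | tmul a z =>
      induction y using TensorProduct.induction_on with
      | zero => simp
      | add y y' hy hy' => rw [mul_add, map_add, map_add, mul_add, hy, hy']
      | tmul a' z' => rw [Algebra.TensorProduct.tmul_mul_tmul, hn.mul]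
  have hone : ∀ c : C, n 1 * c = c := by
    intro c
    refine hd.induction_on (p := fun c => n 1 * c = c) c
      (isClosed_eq (by fun_prop) continuous_id) ?_
    intro y
    rw [← hmul, one_mul]
  have h11 : n 1 = 1 := by
    have := hone 1
    rwa [mul_one] at this
  exact ⟨{ toFun := n
           map_one' := h11
           map_mul' := hmul
           map_zero' := map_zero _
           map_add' := map_add _
           commutes' := by
             intro r
             rw [Algebra.algebraMap_eq_smul_one, Algebra.algebraMap_eq_smul_one, map_smul, h11]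
           map_star' := by
             intro x
             induction x using TensorProduct.induction_on with
             | zero => simp
             | add x x' hx hx' => rw [star_add, map_add, map_add, star_add, hx, hx']
             | tmul a z => rw [TensorProduct.star_tmul, hn.star] }, fun x => rfl⟩

theorem uniqueNorm_of {Z : Type u} [CStarAlgebra Z] (hZ : IsJiangSuAlgebra Z) :
    P095H.UniqueCStarNorm Z := by
  intro D B B' _ _ _ m m' hm hm' x
  exact hZ.nuclear D B B' _ _ (embedding_of m hm) (embedding_of m' hm') x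

theorem flip_of_ssa {Z : Type u} [CStarAlgebra Z] (hn : P095H.UniqueCStarNorm Z)
    (hZ : P095E.StronglySelfAbsorbing Z) : P101.HasInnerHalfFlip Z := by
  intro C' _ μ hμ S ε hε
  obtain ⟨C, i, m, e, hm, hd, h⟩ := hZ
  have hle : ∀ x, ‖μ x‖ ≤ ‖m x‖ := by
    intro x
    have h1 := hn Z C (C × C') m (m.prod μ) hm (fun x y hxy => hm (congrArg Prod.fst hxy)) x
    rw [h1]
    exact le_max_right ‖m x‖ ‖μ x‖
  obtain ⟨ν, hν⟩ := P095H.exists_extension m μ hd hle
  obtain ⟨w, hw, hS⟩ := halfFlip_of_ssa (P095H.nuclear_of hn) hm hd (e := e) h S ε hε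
  refine ⟨ν w, Unitary.map_mem ν hw, fun z hz => ?_⟩
  have h2 : ν w * μ (z ⊗ₜ[ℂ] 1) * star (ν w) - μ (1 ⊗ₜ[ℂ] z) =
      ν (w * m (z ⊗ₜ[ℂ] 1) * star w - m (1 ⊗ₜ[ℂ] z)) := by
    rw [map_sub, map_mul, map_mul, map_star, hν, hν]
  rw [h2]
  exact lt_of_le_of_lt (NonUnitalStarAlgHom.norm_apply_le ν _) (hS z hz)

theorem jiangSu_of {Z : Type u} [CStarAlgebra Z] (hZ : IsJiangSuAlgebra Z) :
    P095E.IsJiangSu Z := by
  have hssa : P095E.StronglySelfAbsorbing Z := by
    obtain ⟨C, i, n, e, hn, h⟩ := hZ.stronglySelfAbsorbing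
    obtain ⟨m, hm⟩ := exists_starAlgHom hn.embedding hn.dense
    have hmn : (m : Z ⊗[ℂ] Z → C) = n := funext hm
    refine ⟨C, i, m, e, ?_, ?_, fun S ε hε => ?_⟩
    · rw [hmn]
      exact hn.embedding.injective
    · rw [hmn]
      exact hn.dense
    · obtain ⟨w, hw, hS⟩ := h S ε hε
      refine ⟨w, hw, fun z hz => ?_⟩
      rw [hm]
      exact hS z hz
  exact
    { separable := hZ.separable
      simple := hZ.simple
      infinite := hZ.infiniteDimensional
      nuclear := P095H.nuclear_of (uniqueNorm_of hZ)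
      limit := by
        obtain ⟨D, hmono, hd, hD⟩ := hZ.limit
        refine ⟨D, hmono, hd, fun k => ?_⟩
        obtain ⟨hc, p, q, hp, hq, hpq, ⟨e⟩⟩ := hD k
        refine ⟨p, q, hp, hq, hpq, hc, (D k).subtype.comp (e : P101.dimDrop p q →⋆ₐ[ℂ] D k),
          ?_, ?_⟩
        · exact Subtype.val_injective.comp e.injective
        · ext z
          constructor
          · rintro ⟨x, rfl⟩
            exact (e x).2
          · intro hz
            exact ⟨e.symm ⟨z, hz⟩, congrArg Subtype.val (e.apply_symm_apply ⟨z, hz⟩)⟩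
      flip := flip_of_ssa (uniqueNorm_of hZ) hssa
      selfAbsorbing := hssa }

end Tensor

section Conj

variable {G : Type v} [Group G] {A B : Type u} [NonUnitalCStarAlgebra A]
  [NonUnitalCStarAlgebra B]

theorem conj_of {α : G →* (A ≃⋆ₐ[ℂ] A)} {β : G →* (B ≃⋆ₐ[ℂ] B)}
    (h : P095G.CocycleConjugateM α β) : AreCocycleConjugate α β := by
  obtain ⟨Φ, w, h1, h2⟩ := h
  refine ⟨Φ, w, fun g h b => ?_, h2⟩
  obtain ⟨m, hm, hw⟩ := h1 g h
  rw [hw, DoubleCentralizer.mul_fst]
  change (w g : 𝓜(ℂ, B)).fst (m.fst b) = _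
  have h3 := (hm (β g⁻¹ b)).1
  have h4 : β g (β g⁻¹ b) = b := by
    rw [← StarAlgEquiv.mul_apply, ← map_mul, mul_inv_cancel, map_one]
    rfl
  rw [h4] at h3
  rw [h3]

end Conj

theorem main {Z : Type u} [CStarAlgebra Z] (hZ : IsJiangSuAlgebra Z)
    {A : Type u} [NonUnitalCStarAlgebra A]
    [TopologicalSpace.SeparableSpace A] (hsimple : Vale.Agent.P095.IsSimpleCStar A)
    (hnuclear : P095H.IsNuclear A) {B : Type u} [NonUnitalCStarAlgebra B] (m : A ⊗[ℂ] Z →ₗ[ℂ] B)
    (hm : IsMinimalTensorProduct m) (hstable : Nonempty (A ≃⋆ₐ[ℂ] B))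
    {G : Type v} [Group G] [Countable G] (hG : P095H.IsAmenable G) (α : G →* (A ≃⋆ₐ[ℂ] A)) :
    ∃ β : G →* (B ≃⋆ₐ[ℂ] B),
      (∀ (g : G) (a : A) (z : Z), β g (m (a ⊗ₜ[ℂ] z)) = m (α g a ⊗ₜ[ℂ] z)) ∧
      AreCocycleConjugate α β := by
  have hc : P095G.IsTensorCompletion m :=
    { mul := fun a a' z z' => (hm.embedding.mul a a' z z').symm
      star := fun a z => (hm.embedding.star a z).symm
      injective := hm.embedding.injective
      dense := hm.dense }
  obtain ⟨γ, hγ, h⟩ := P095G.whole (P095H.folner_of_measure hG)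
    (P095H.simple_of_simple hsimple) (P095H.nuclearN_of hnuclear) (jiangSu_of hZ)
    m hc hstable α
  exact ⟨γ, hγ, conj_of h⟩

end P095K
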