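import Vale.Agent.Lib.P095H.Stmt

/-!
# P095, third formulation: the definitions
-/

open scoped TensorProduct MultiplierAlgebra CStarAlgebra ComplexOrder

namespace P095K

universe u v

/-- The linear map `m` from the algebraic tensor product `A ⊗ Z` to the C*-algebra `B` is an
injective *-homomorphism.  (The functions `x ↦ ‖m x‖` obtained in this way are exactly the
C*-norms on `A ⊗ Z`.) -/
structure IsTensorEmbedding {A Z B : Type u} [NonUnitalCStarAlgebra A] [NonUnitalCStarAlgebra Z]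
    [NonUnitalCStarAlgebra B] (m : A ⊗[ℂ] Z →ₗ[ℂ] B) : Prop where
  injective : Function.Injective m
  mul : ∀ (a a' : A) (z z' : Z), m ((a * a') ⊗ₜ[ℂ] (z * z')) = m (a ⊗ₜ[ℂ] z) * m (a' ⊗ₜ[ℂ] z')
  star : ∀ (a : A) (z : Z), m (star a ⊗ₜ[ℂ] star z) = star (m (a ⊗ₜ[ℂ] z))

/-- `m` exhibits the C*-algebra `B` as the minimal tensor product of `A` and `Z`: `B` is the
completion of the algebraic tensor product `A ⊗ Z` in the smallest C*-norm (by Takesaki's theorem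
this is the spatial norm). -/
structure IsMinimalTensorProduct {A Z B : Type u} [NonUnitalCStarAlgebra A]
    [NonUnitalCStarAlgebra Z] [NonUnitalCStarAlgebra B] (m : A ⊗[ℂ] Z →ₗ[ℂ] B) : Prop where
  embedding : IsTensorEmbedding m
  dense : DenseRange m
  minimal : ∀ (C : Type u) [NonUnitalCStarAlgebra C] (n : A ⊗[ℂ] Z →ₗ[ℂ] C),
    IsTensorEmbedding n → ∀ x, ‖m x‖ ≤ ‖n x‖

/-- `Z` is the Jiang-Su algebra, as it is described in the problem.  By a theorem of Jiang and Su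
(1999) the first four properties determine `Z` up to isomorphism; the other three hold for this
algebra (separability is clear, nuclearity and strong self-absorption are theorems of Jiang and
Su). -/
structure IsJiangSuAlgebra (Z : Type u) [CStarAlgebra Z] : Prop where
  /-- `Z` is simple. -/
  simple : IsSimpleRing Z
  infiniteDimensional : ¬ FiniteDimensional ℂ Z
  /-- `Z` is an inductive limit of prime dimension drop algebras `I(p, q)`: the closure of the union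
  of an increasing sequence of C*-subalgebras, each isomorphic to some `I(p, q)`. -/
  limit : ∃ D : ℕ → StarSubalgebra ℂ Z, Monotone D ∧ Dense (⋃ n, (D n : Set Z)) ∧
    ∀ n, IsClosed (D n : Set Z) ∧ ∃ p q : ℕ, 1 ≤ p ∧ 1 ≤ q ∧ Nat.Coprime p q ∧
      Nonempty (P101.dimDrop p q ≃⋆ₐ[ℂ] D n)
  /-- `Z` has exactly one tracial state. -/
  uniqueTrace : ∃! τ : Z →ₗ[ℂ] ℂ, τ 1 = 1 ∧ (∀ x, 0 ≤ τ (star x * x)) ∧
    ∀ x y, τ (x * y) = τ (y * x)
  separable : TopologicalSpace.SeparableSpace Z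
  /-- `Z` is nuclear: for every C*-algebra `D` there is only one C*-norm on `D ⊗ Z`. -/
  nuclear : ∀ (D B B' : Type u) [NonUnitalCStarAlgebra D] [NonUnitalCStarAlgebra B]
    [NonUnitalCStarAlgebra B'] (m : D ⊗[ℂ] Z →ₗ[ℂ] B) (m' : D ⊗[ℂ] Z →ₗ[ℂ] B'),
    IsTensorEmbedding m → IsTensorEmbedding m' → ∀ x, ‖m x‖ = ‖m' x‖
  /-- `Z` is strongly self-absorbing: there is an isomorphism `e : Z → Z ⊗ Z` that is approximately
  unitarily equivalent to `z ↦ z ⊗ 1`. -/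
  stronglySelfAbsorbing : ∃ (C : Type u) (_ : CStarAlgebra C) (m : Z ⊗[ℂ] Z →ₗ[ℂ] C)
    (e : Z ≃⋆ₐ[ℂ] C), IsMinimalTensorProduct m ∧ ∀ (S : Finset Z) (ε : ℝ), 0 < ε →
      ∃ w ∈ unitary C, ∀ z ∈ S, ‖w * m (z ⊗ₜ[ℂ] 1) * star w - e z‖ < ε

/-- The actions `α` of `G` on `A` and `β` of `G` on `B` are cocycle conjugate: there are a
*-isomorphism `Φ : A → B` and unitaries `w_g` in the multiplier algebra `M(B)` with
`w_{gh} = w_g β_g(w_h)` and `Φ(α_g(a)) = w_g β_g(Φ(a)) w_g^*`.  (`m.fst b` is the product `m b` of a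
multiplier `m` and `b ∈ B`, and `β_g(w_h) b = β_g(w_h β_g⁻¹(b))`.) -/
def AreCocycleConjugate {G : Type v} [Group G] {A B : Type u} [NonUnitalCStarAlgebra A]
    [NonUnitalCStarAlgebra B] (α : G →* (A ≃⋆ₐ[ℂ] A)) (β : G →* (B ≃⋆ₐ[ℂ] B)) : Prop :=
  ∃ (Φ : A ≃⋆ₐ[ℂ] B) (w : G → unitary 𝓜(ℂ, B)),
    (∀ (g h : G) (b : B), (w (g * h) : 𝓜(ℂ, B)).fst b =
      (w g : 𝓜(ℂ, B)).fst (β g ((w h : 𝓜(ℂ, B)).fst (β g⁻¹ b)))) ∧
    ∀ (g : G) (a : A), ((Φ (α g a) : B) : 𝓜(ℂ, B)) =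
      (w g : 𝓜(ℂ, B)) * ((β g (Φ a) : B) : 𝓜(ℂ, B)) * star (w g : 𝓜(ℂ, B))

end P095K
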